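import Mathlib

/-!
P085: the statement that every type II_1 factor with separable predual is generated by one element.
A von Neumann algebra is Mathlib's `VonNeumannAlgebra`, a star algebra of operators equal to its
double commutant; a normal state is a countable sum of vector functionals.
-/

open scoped InnerProductSpace

namespace VP085.Lit

variable (H : Type) [NormedAddCommGroup H] [InnerProductSpace ℂ H] [CompleteSpace H]

/-- The centre of `M` consists of the scalars. -/
def IsFactor (M : VonNeumannAlgebra H) : Prop :=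
  ∀ z ∈ M, (∀ y ∈ M, z * y = y * z) → ∃ c : ℂ, z = c • 1

/-- `M` is not finite dimensional. -/
def IsInfiniteDim (M : VonNeumannAlgebra H) : Prop :=
  ¬ ∃ s : Finset (H →L[ℂ] H), (M : Set (H →L[ℂ] H)) ⊆ Submodule.span ℂ (s : Set (H →L[ℂ] H))

/-- The vectors `ξ n` give a faithful normal tracial state of `M`, namely `x ↦ ∑ ⟪ξ n, x (ξ n)⟫`. -/
def IsFaithfulTrace (M : VonNeumannAlgebra H) (ξ : ℕ → H) : Prop :=
  HasSum (fun n => ‖ξ n‖ ^ 2) 1 ∧
    (∀ x ∈ M, ∀ y ∈ M, ∑' n, ⟪ξ n, x (y (ξ n))⟫_ℂ = ∑' n, ⟪ξ n, y (x (ξ n))⟫_ℂ) ∧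
    ∀ x ∈ M, (∀ n, x (ξ n) = 0) → x = 0

/-- `M` is a factor of type II_1. -/
def IsTypeTwoOneFactor (M : VonNeumannAlgebra H) : Prop :=
  IsFactor H M ∧ IsInfiniteDim H M ∧ ∃ ξ : ℕ → H, IsFaithfulTrace H M ξ

/-- `M` is the double commutant of one of its elements and the adjoint of that element. -/
def SinglyGenerated (M : VonNeumannAlgebra H) : Prop :=
  ∃ x : H →L[ℂ] H, x ∈ M ∧
    Set.centralizer (Set.centralizer {x, star x}) = (M : Set (H →L[ℂ] H))

/-- Every II_1 factor on a separable Hilbert space is singly generated. -/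
def Target : Prop :=
  ∀ (H : Type) [NormedAddCommGroup H] [InnerProductSpace ℂ H] [CompleteSpace H]
    [TopologicalSpace.SeparableSpace H] (M : VonNeumannAlgebra H),
    IsTypeTwoOneFactor H M → SinglyGenerated H M

end VP085.Lit
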