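import Vale.Agent.P086.Model.Basic
import Vale.Agent.P085.Lit.Statement

/-!
P085: the hypotheses of the statement are satisfiable: the group von Neumann algebra of a
countable group with infinite conjugacy classes is a II_1 factor on a separable space.
-/

open scoped InnerProductSpace

namespace VP085.Lit.Sanity

open VP086 VP086.Model

variable (G : Type) [Group G]

/-- The group von Neumann algebra as a von Neumann algebra. -/
noncomputable def vn : VonNeumannAlgebra (GroupL2 G) where
  toStarSubalgebra := groupVN G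
  centralizer_centralizer' := by
    show Set.centralizer (Set.centralizer (groupVN G : Set (GroupL2 G →L[ℂ] GroupL2 G))) =
      (groupVN G : Set (GroupL2 G →L[ℂ] GroupL2 G))
    rw [groupVN, StarSubalgebra.coe_centralizer]
    simp

variable {G}

theorem mem_vn {x : GroupL2 G →L[ℂ] GroupL2 G} : x ∈ vn G ↔ x ∈ groupVN G := Iff.rfl

theorem isFactor (h : ∀ k : G, k ≠ 1 → (Set.range fun g : G => g * k * g⁻¹).Infinite) :
    IsFactor (GroupL2 G) (vn G) := by
  intro z hz hc
  refine ⟨cf z 1, eq_of_vec (mem_vn.1 hz) (SMulMemClass.smul_mem _ (one_mem _)) ?_⟩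
  refine lp.ext (funext fun k => ?_)
  by_cases hk : k = 1
  · subst hk
    show cf z 1 = (cf z 1 • pm (G := G) 1) 1
    rw [lp.coeFn_smul, Pi.smul_apply, pm_self, smul_eq_mul, mul_one]
  · have hconst : ∀ g, z (pm 1) (g * k * g⁻¹) = z (pm 1) k := fun g => by
      have e := DFunLike.congr_fun (hc _ (mem_vn.2 (lmul_mem g))) (pm 1)
      show cf z (g * k * g⁻¹) = cf z k
      have e' : z (pm g) = lmul g (z (pm 1)) := by
        simpa [mul_apply_eq_comp, lmul_pm] using e
      have e'' := congrArg (fun v : GroupL2 G => v (g * k)) e'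
      simp only [apply_pm_apply (mem_vn.1 hz), lmul_apply, inv_mul_cancel_left] at e''
      rw [mul_assoc] at e''
      rw [mul_assoc]
      simpa using e''
    show z (pm 1) k = (cf z 1 • pm (G := G) 1) k
    rw [lp.coeFn_smul, Pi.smul_apply, pm_ne hk, smul_zero]
    by_contra hne
    have hs : Summable fun j => ‖z (pm (G := G) 1) j‖ ^ (2 : ENNReal).toReal :=
      (lp.hasSum_norm (by norm_num) (z (pm (G := G) 1))).summable
    have hpos : 0 < ‖z (pm (G := G) 1) k‖ ^ (2 : ENNReal).toReal :=
      Real.rpow_pos_of_pos (norm_pos_iff.2 hne) _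
    have hev := hs.tendsto_cofinite_zero.eventually (gt_mem_nhds hpos)
    rw [Filter.eventually_cofinite] at hev
    refine h k hk (hev.subset ?_)
    rintro _ ⟨g, rfl⟩
    show ¬ _ < _
    rw [hconst g]
    exact lt_irrefl _

theorem isInfiniteDim [Infinite G] : IsInfiniteDim (GroupL2 G) (vn G) := by
  rintro ⟨s, hs⟩
  let ev : (GroupL2 G →L[ℂ] GroupL2 G) →ₗ[ℂ] GroupL2 G :=
    (ContinuousLinearMap.apply ℂ (GroupL2 G) (pm (G := G) 1)).toLinearMap
  have hli : LinearIndependent ℂ (pm : G → GroupL2 G) := by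
    classical
    refine Orthonormal.linearIndependent (orthonormal_iff_ite.2 fun g g' => ?_)
    rw [inner_pm]
    split
    · next e => rw [e, pm_self]
    · next e => exact pm_ne e
  have hmem : ∀ g : G, pm g ∈ (Submodule.span ℂ (s : Set (GroupL2 G →L[ℂ] GroupL2 G))).map ev :=
    fun g => ⟨lmul g, hs (lmul_mem g), by simp [ev, lmul_pm]⟩
  have hli' := LinearIndependent.of_comp
    ((Submodule.span ℂ (s : Set (GroupL2 G →L[ℂ] GroupL2 G))).map ev).subtype
    (v := fun g : G => (⟨pm g, hmem g⟩ : ↥((Submodule.span ℂ (s : Set _)).map ev))) hli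
  exact (not_finite_iff_infinite.2 ‹Infinite G›) hli'.finite

theorem exists_trace : ∃ ξ : ℕ → GroupL2 G, IsFaithfulTrace (GroupL2 G) (vn G) ξ := by
  refine ⟨fun n => if n = 0 then pm 1 else 0, ?_, fun x hx y hy => ?_, fun x hx h => ?_⟩
  · convert hasSum_single (α := ℝ) (f := fun n : ℕ => ‖(if n = 0 then pm (G := G) 1 else 0)‖ ^ 2) 0
      (fun n hn => by simp [hn]) using 1
    simp [norm_pm]
  · rw [tsum_eq_single 0 (fun n hn => by simp [hn]), tsum_eq_single 0 (fun n hn => by simp [hn])]
    simp only [if_true, inner_pm]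
    exact trace_comm (mem_vn.1 hx) (mem_vn.1 hy)
  · refine eq_of_vec (mem_vn.1 hx) (zero_mem _) ?_
    simpa using h 0

theorem separable [Countable G] : TopologicalSpace.SeparableSpace (GroupL2 G) := by
  have hd : Dense (Submodule.span ℂ (Set.range (pm : G → GroupL2 G)) : Set (GroupL2 G)) := by
    classical
    intro v
    refine mem_closure_of_tendsto
      (lp.hasSum_single (E := fun _ : G => ℂ) (by norm_num : (2 : ENNReal) ≠ ⊤) v) ?_
    refine Filter.Eventually.of_forall fun t => Submodule.sum_mem _ fun g _ => ?_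
    have e : lp.single 2 g (v g) = v g • pm g := by
      rw [pm, ← lp.single_smul, smul_eq_mul, mul_one]
    rw [e]
    exact Submodule.smul_mem _ _ (Submodule.subset_span ⟨g, rfl⟩)
  refine TopologicalSpace.isSeparable_univ_iff.1 ?_
  rw [← hd.closure_eq]
  exact ((Set.countable_range _).isSeparable.span (R := ℂ)).closure

/-- The group of finitary permutations generated by the transpositions. -/
noncomputable abbrev perms : Subgroup (Equiv.Perm ℕ) :=
  (FreeGroup.lift fun p : ℕ × ℕ => Equiv.swap p.1 p.2).range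

theorem perms_icc : ∀ k : perms, k ≠ 1 → (Set.range fun g : perms => g * k * g⁻¹).Infinite := by
  intro k hk
  obtain ⟨i, hi⟩ : ∃ i, (k : Equiv.Perm ℕ) i ≠ i := by
    by_contra h
    push Not at h
    exact hk (Subtype.ext (Equiv.ext fun i => h i))
  set j := (k : Equiv.Perm ℕ) i
  let σ : ℕ → perms := fun m =>
    ⟨Equiv.swap j m, ⟨FreeGroup.of (j, m), FreeGroup.lift_apply_of⟩⟩
  intro hfin
  have hinj : Set.InjOn (fun m => σ m * k * (σ m)⁻¹) ({i, j} : Set ℕ)ᶜ := by
    intro m hm m' hm' e
    simp only [Set.mem_compl_iff, Set.mem_insert_iff, Set.mem_singleton_iff, not_or] at hm hm'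
    have val : ∀ n, n ≠ i → ((σ n * k * (σ n)⁻¹ : perms) : Equiv.Perm ℕ) i = n := fun n hn => by
      simp [σ, Equiv.Perm.mul_apply, Equiv.swap_apply_of_ne_of_ne (Ne.symm hi) (Ne.symm hn),
        show (k : Equiv.Perm ℕ) i = j from rfl]
    rw [← val m hm.1, ← val m' hm'.1]
    exact congrArg (fun f : perms => (f : Equiv.Perm ℕ) i) e
  refine ((Set.toFinite ({i, j} : Set ℕ)).infinite_compl.image hinj) (hfin.subset ?_)
  rintro _ ⟨m, -, rfl⟩
  exact ⟨σ m, rfl⟩

/-- The hypotheses of the statement are satisfiable. -/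
theorem exists_typeTwoOneFactor :
    ∃ (H : Type) (_ : NormedAddCommGroup H) (_ : InnerProductSpace ℂ H) (_ : CompleteSpace H)
      (_ : TopologicalSpace.SeparableSpace H) (M : VonNeumannAlgebra H),
      IsTypeTwoOneFactor H M := by
  have : Countable perms := (MonoidHom.rangeRestrict_surjective _).countable
  have : Infinite perms := Infinite.of_injective
    (fun n : ℕ => (⟨Equiv.swap 0 n, ⟨FreeGroup.of (0, n), FreeGroup.lift_apply_of⟩⟩ : perms))
    fun m n e => by
      simpa using congrArg (fun f : perms => (f : Equiv.Perm ℕ) 0) e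
  exact ⟨GroupL2 perms, inferInstance, inferInstance, inferInstance, separable, vn perms,
    isFactor perms_icc, isInfiniteDim, exists_trace⟩

end VP085.Lit.Sanity
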